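import Mathlib
import Crest.Prelude.Def_GraphMetric

/-! R206 (helper534): interface.  A finite family of weighted cuts gives a map into `L¹`; basic
facts about `wdist`. -/

set_option autoImplicit false
open MeasureTheory Crest.GeometryTopology.GraphMetric

namespace Crest.Agent.R206.Iface534

/-- weight of the cuts separating `x` and `y` -/
noncomputable def cutw {V : Type*} [Fintype V] [DecidableEq V] (w : Finset V → ℝ) (x y : V) : ℝ :=
  ∑ S : Finset V, w S * (if (x ∈ S ↔ y ∈ S) then 0 else 1)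

theorem exists_Lp_of_cuts {V : Type} [Fintype V] [DecidableEq V] (w : Finset V → ℝ)
    (hw : ∀ S, 0 ≤ w S) :
    ∃ (Ω : Type) (_ : MeasurableSpace Ω) (μ : Measure Ω) (f : V → Lp ℝ 1 μ),
      ∀ x y : V, ‖f x - f y‖ = cutw w x y := by
  classical
  let _m : MeasurableSpace (Finset V) := ⊤
  let g : V → Finset V → ℝ := fun x S => w S * (if x ∈ S then 1 else 0)
  have hg : ∀ x, MemLp (g x) 1 (Measure.count : Measure (Finset V)) := by
    intro x
    refine (memLp_one_iff_integrable).2 ?_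
    exact Integrable.of_finite
  refine ⟨Finset V, ⊤, Measure.count, fun x => (hg x).toLp, fun x y => ?_⟩
  rw [← MemLp.toLp_sub, Lp.norm_toLp, eLpNorm_one_eq_lintegral_enorm, lintegral_count,
    tsum_fintype, ENNReal.toReal_sum (fun S _ => by simp)]
  unfold cutw
  refine Finset.sum_congr rfl fun S _ => ?_
  simp only [Pi.sub_apply, toReal_enorm, g]
  by_cases hx : x ∈ S <;> by_cases hy : y ∈ S <;> simp [hx, hy, abs_of_nonneg (hw S)]

section wd

variable {V : Type*} {G : SimpleGraph V} {ℓ : Sym2 V → ℝ}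

theorem edges_sum_nonneg (hℓ : ∀ e ∈ G.edgeSet, 0 < ℓ e) {u v : V} (p : G.Walk u v) :
    0 ≤ (p.edges.map ℓ).sum := by
  refine List.sum_nonneg fun x hx => ?_
  obtain ⟨e, he, rfl⟩ := List.mem_map.1 hx
  exact (hℓ e (p.edges_subset_edgeSet he)).le

theorem bddBelow (hℓ : ∀ e ∈ G.edgeSet, 0 < ℓ e) (u v : V) :
    BddBelow (Set.range fun p : G.Walk u v => (p.edges.map ℓ).sum) :=
  ⟨0, by rintro _ ⟨p, rfl⟩; exact edges_sum_nonneg hℓ p⟩

theorem wdist_le_walk (hℓ : ∀ e ∈ G.edgeSet, 0 < ℓ e) {u v : V} (p : G.Walk u v) :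
    wdist G ℓ u v ≤ (p.edges.map ℓ).sum := ciInf_le (bddBelow hℓ u v) p

theorem le_wdist (hG : G.Connected) {u v : V} {a : ℝ}
    (h : ∀ p : G.Walk u v, a ≤ (p.edges.map ℓ).sum) : a ≤ wdist G ℓ u v := by
  have : Nonempty (G.Walk u v) := hG.preconnected u v
  exact le_ciInf h

theorem wdist_self (hG : G.Connected) (hℓ : ∀ e ∈ G.edgeSet, 0 < ℓ e) (u : V) :
    wdist G ℓ u u = 0 := by
  refine le_antisymm ?_ (le_wdist hG fun p => edges_sum_nonneg hℓ p)
  simpa using wdist_le_walk hℓ (SimpleGraph.Walk.nil : G.Walk u u)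

theorem wdist_nonneg (hG : G.Connected) (hℓ : ∀ e ∈ G.edgeSet, 0 < ℓ e) (u v : V) :
    0 ≤ wdist G ℓ u v := le_wdist hG fun p => edges_sum_nonneg hℓ p

theorem wdist_comm (hG : G.Connected) (hℓ : ∀ e ∈ G.edgeSet, 0 < ℓ e) (u v : V) :
    wdist G ℓ u v = wdist G ℓ v u := by
  have key : ∀ a b : V, wdist G ℓ a b ≤ wdist G ℓ b a := by
    intro a b
    refine le_wdist hG fun p => ?_
    refine (wdist_le_walk hℓ p.reverse).trans (le_of_eq ?_)
    rw [SimpleGraph.Walk.edges_reverse, List.map_reverse, List.sum_reverse]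
  exact le_antisymm (key u v) (key v u)

theorem wdist_triangle (hG : G.Connected) (hℓ : ∀ e ∈ G.edgeSet, 0 < ℓ e) (u v w : V) :
    wdist G ℓ u w ≤ wdist G ℓ u v + wdist G ℓ v w := by
  have h1 : ∀ p : G.Walk u v, wdist G ℓ u w - (p.edges.map ℓ).sum ≤ wdist G ℓ v w := by
    intro p
    refine le_wdist hG fun q => ?_
    have := wdist_le_walk hℓ (p.append q)
    rw [SimpleGraph.Walk.edges_append, List.map_append, List.sum_append] at this
    linarith
  have h2 : wdist G ℓ u w - wdist G ℓ v w ≤ wdist G ℓ u v :=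
    le_wdist hG fun p => by linarith [h1 p]
  linarith

theorem wdist_edge_le (hℓ : ∀ e ∈ G.edgeSet, 0 < ℓ e) {u v : V} (h : G.Adj u v) :
    wdist G ℓ u v ≤ ℓ s(u, v) := by
  simpa using wdist_le_walk hℓ (SimpleGraph.Walk.cons h SimpleGraph.Walk.nil)

/-- a pseudometric which is at most `C ℓ` on edges is at most `C wdist`. -/
theorem le_mul_wdist (hG : G.Connected) (ρ : V → V → ℝ) (C : ℝ) (hC : 0 ≤ C)
    (h0 : ∀ x, ρ x x = 0) (htri : ∀ x y z, ρ x z ≤ ρ x y + ρ y z)
    (hedge : ∀ u v, G.Adj u v → ρ u v ≤ C * ℓ s(u, v)) (x y : V) :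
    ρ x y ≤ C * wdist G ℓ x y := by
  have key : ∀ {u v : V} (p : G.Walk u v), ρ u v ≤ C * (p.edges.map ℓ).sum := by
    intro u v p
    induction p with
    | nil => simp [h0]
    | @cons a b c h p ih =>
      simp only [SimpleGraph.Walk.edges_cons, List.map_cons, List.sum_cons]
      refine (htri a b c).trans ?_
      rw [mul_add]
      exact add_le_add (hedge _ _ h) ih
  rcases hC.eq_or_lt with rfl | hC'
  · have : Nonempty (G.Walk x y) := hG.preconnected x y
    simpa using key (Classical.arbitrary (G.Walk x y))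
  · have : ρ x y / C ≤ wdist G ℓ x y := le_wdist hG fun p => by
      rw [div_le_iff₀ hC']; rw [mul_comm]; exact key p
    rw [div_le_iff₀ hC'] at this
    linarith

end wd

theorem cutw_self {V : Type*} [Fintype V] [DecidableEq V] (w : Finset V → ℝ) (x : V) :
    cutw w x x = 0 := by simp [cutw]

theorem cutw_triangle {V : Type*} [Fintype V] [DecidableEq V] (w : Finset V → ℝ)
    (hw : ∀ S, 0 ≤ w S) (x y z : V) : cutw w x z ≤ cutw w x y + cutw w y z := by
  unfold cutw
  rw [← Finset.sum_add_distrib]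
  refine Finset.sum_le_sum fun S _ => ?_
  by_cases hx : x ∈ S <;> by_cases hy : y ∈ S <;> by_cases hz : z ∈ S <;> simp [hx, hy, hz, hw S]

/-- **Interface**: cuts with weight `≤ C ℓ(e)` on every edge and `≥ wdist x y` on every pair give
the required map into `L¹`. -/
theorem embed_of_cuts {V : Type} [Fintype V] [DecidableEq V] {G : SimpleGraph V} (hG : G.Connected)
    {ℓ : Sym2 V → ℝ} {C : ℝ} (hC : 0 ≤ C) (w : Finset V → ℝ)
    (hw : ∀ S, 0 ≤ w S) (hup : ∀ u v, G.Adj u v → cutw w u v ≤ C * ℓ s(u, v))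
    (hlo : ∀ x y, wdist G ℓ x y ≤ cutw w x y) :
    ∃ (Ω : Type) (_ : MeasurableSpace Ω) (μ : Measure Ω) (f : V → Lp ℝ 1 μ),
      ∀ x y : V, wdist G ℓ x y ≤ ‖f x - f y‖ ∧ ‖f x - f y‖ ≤ C * wdist G ℓ x y := by
  obtain ⟨Ω, m, μ, f, hf⟩ := exists_Lp_of_cuts w hw
  refine ⟨Ω, m, μ, f, fun x y => ?_⟩
  rw [hf]
  exact ⟨hlo x y, le_mul_wdist hG (cutw w) C hC (cutw_self w) (cutw_triangle w hw) hup x y⟩

end Crest.Agent.R206.Iface534
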